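import Vale.Agent.P168.Main

open MeasureTheory ProbabilityTheory Filter Topology Vale.Agent.P168

theorem Vale.Agent.Results.P168.MezardParisi.result
    {K : ℕ} (hK : 2 ≤ K) (hKe : Even K) {lam : ℝ} (hlam : 0 < lam)
    {Ω : Type*} [MeasurableSpace Ω] (P : Measure Ω) [IsProbabilityMeasure P]
    (a b : Ω → ℝ) (f : Fin K → Ω → Bool → ℝ)
    (ham : Measurable a) (hbm : Measurable b) (hfm : ∀ j, Measurable (f j))
    (ha : ∀ ω, 0 < a ω) (hb : ∀ ω, -1 < b ω ∧ b ω < 1)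
    (hf : ∀ j ω s, -1 ≤ f j ω s ∧ f j ω s ≤ 1)
    (hθ : ∀ σ, Integrable (fun ω => clause a b f ω σ) P)
    (ν : Measure ℝ) [IsProbabilityMeasure ν] (hν : Integrable (fun h : ℝ => h) ν) :
    ∃ L : ℝ, IsGLB (trial lam P (clause a b f) ν) L ∧
      (∀ ε : ℝ, 0 < ε → ∀ᶠ N in atTop, L - ε ≤ press lam P (clause a b f) ν N) ∧
      ((∀ n, 1 ≤ n → 0 ≤ ∫ ω, (-b ω) ^ n ∂P) → iIndepFun f P →
        (∀ j j', IdentDistrib (f j) (f j') P P) → IndepFun b (fun ω j => f j ω) P →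
        Tendsto (press lam P (clause a b f) ν) atTop (𝓝 L)) :=
  main P hK hKe hlam a b f ham hbm hfm ha hb hf hθ ν hν
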